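import Crest.Agent.N255.Uc.Av

/-!
# Row 233 (helper62): wrapping up.  A homeomorphism `ψ` that normalises an action of `H` and raises an
invariant height gives an action of `H ⋊ ℤ`.
-/

set_option autoImplicit false
open Set Filter Topology

noncomputable section

namespace Crest.Agent.N233.Wu

open Crest.Agent.N255.Uc

/-- `G` is an extension of `ℤ` by `H`, `s` goes to the generator and `ψ` realises `s` -/
structure Tw (H G T : Type) [Group H] [Group G] [TopologicalSpace T] [MulAction H T] where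
  ι : H →* G
  inj : Function.Injective ι
  n : G → ℤ
  n_mul : ∀ a b, n (a * b) = n a + n b
  ker : ∀ g, n g = 0 ↔ ∃ h, ι h = g
  s : G
  n_s : n s = 1
  ψ : T ≃ₜ T
  nrm : ∀ (h h' : H) x, ι h' = s * ι h * s⁻¹ → ψ (h • x) = h' • ψ x

section add
variable {G : Type} [Group G] {n : G → ℤ} (hn : ∀ a b, n (a * b) = n a + n b)
include hn

theorem ad_one : n 1 = 0 := by have := hn 1 1; rw [one_mul] at this; omega

theorem ad_inv (a : G) : n a⁻¹ = -n a := by
  have := hn a a⁻¹; rw [mul_inv_cancel, ad_one hn] at this; omega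

theorem ad_zpow (a : G) (k : ℤ) : n (a ^ k) = k * n a := by
  induction k using Int.induction_on with
  | zero => simp [ad_one hn]
  | succ k ih => rw [zpow_add_one, hn, ih]; ring
  | pred k ih => rw [zpow_sub_one, hn, ih, ad_inv hn]; ring

end add

namespace Tw

variable {H G T : Type} [Group H] [Group G] [TopologicalSpace T] [MulAction H T] (w : Tw H G T)

/-- the inverse of `ι` -/
def j (g : G) : H := Function.invFun w.ι g

theorem ι_j {g : G} (h : w.n g = 0) : w.ι (w.j g) = g := Function.invFun_eq ((w.ker g).1 h)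

theorem j_ι (h : H) : w.j (w.ι h) = h := Function.leftInverse_invFun w.inj h

theorem n_ι (h : H) : w.n (w.ι h) = 0 := (w.ker _).2 ⟨h, rfl⟩

theorem n_pow (k : ℤ) : w.n (w.s ^ k) = k := by rw [ad_zpow w.n_mul, w.n_s, mul_one]

theorem n_conj (g : G) (h : H) : w.n (g * w.ι h * g⁻¹) = 0 := by
  rw [w.n_mul, w.n_mul, ad_inv w.n_mul, w.n_ι]; ring

theorem n_red (g : G) : w.n (g * (w.s ^ w.n g)⁻¹) = 0 := by
  rw [w.n_mul, ad_inv w.n_mul, w.n_pow]; ring

theorem nrm_pow (k : ℤ) : ∀ (h h' : H) x, w.ι h' = w.s ^ k * w.ι h * (w.s ^ k)⁻¹ →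
    (w.ψ ^ k) (h • x) = h' • (w.ψ ^ k) x := by
  induction k using Int.induction_on with
  | zero => intro h h' x e; rw [w.inj (show w.ι h' = w.ι h by simpa using e)]; rfl
  | succ k ih =>
    intro h h' x e
    rw [add_comm, zpow_one_add, Homeomorph.mul_apply, Homeomorph.mul_apply,
      ih h _ x (w.ι_j (w.n_conj _ h))]
    refine w.nrm _ _ _ ?_
    rw [w.ι_j (w.n_conj _ h), e, add_comm, zpow_one_add]; group
  | pred k ih =>
    intro h h' x e
    have e1 : w.ψ ^ (-(k : ℤ) - 1) = w.ψ⁻¹ * w.ψ ^ (-(k : ℤ)) := by group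
    rw [e1, Homeomorph.mul_apply, Homeomorph.mul_apply, ih h _ x (w.ι_j (w.n_conj _ h))]
    refine w.ψ.injective ?_
    rw [w.nrm h' (w.j (w.s ^ (-(k : ℤ)) * w.ι h * (w.s ^ (-(k : ℤ)))⁻¹)) _
      (by rw [w.ι_j (w.n_conj _ h), e]; group)]
    simp

/-- the action of `G` -/
def sm (g : G) (x : T) : T := w.j (g * (w.s ^ w.n g)⁻¹) • (w.ψ ^ w.n g) x

theorem sm_ι (h : H) (x : T) : w.sm (w.ι h) x = h • x := by
  simp [sm, w.n_ι, w.j_ι]


theorem sm_mul (a b : G) (x : T) : w.sm (a * b) x = w.sm a (w.sm b x) := by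
  unfold sm
  rw [w.nrm_pow (w.n a) _ _ _ (w.ι_j (w.n_conj _ _)), ← mul_smul, ← Homeomorph.mul_apply,
    ← zpow_add, ← w.n_mul]
  congr 1
  refine w.inj ?_
  rw [map_mul, w.ι_j (w.n_red _), w.ι_j (w.n_red _), w.ι_j (w.n_conj _ _), w.ι_j (w.n_red _),
    w.n_mul, zpow_add]
  group

/-- the action of `G` -/
@[reducible] def act : MulAction G T where
  smul := w.sm
  one_smul x := by have := w.sm_ι 1 x; rwa [map_one, one_smul] at this
  mul_smul := w.sm_mul

theorem sm_pow (k : ℤ) (x : T) : w.sm (w.s ^ k) x = (w.ψ ^ k) x := by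
  have : w.j 1 = 1 := by simpa using w.j_ι 1
  simp [sm, w.n_pow, this]

theorem continuous_sm [ContinuousConstSMul H T] (g : G) : Continuous (w.sm g) :=
  (continuous_const_smul _).comp (w.ψ ^ w.n g).continuous

variable {η : T → ℝ} (hi : ∀ (h : H) x, η (h • x) = η x) (hu : ∀ x, η x + 1 ≤ η (w.ψ x))

include hu in
theorem up (k : ℕ) (x : T) : η x + k ≤ η ((w.ψ ^ (k : ℤ)) x) := by
  induction k with
  | zero => simp
  | succ k ih =>
    have := hu ((w.ψ ^ (k : ℤ)) x)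
    rw [Nat.cast_succ (R := ℤ), add_comm (k : ℤ), zpow_one_add, Homeomorph.mul_apply]
    push_cast; linarith

include hu in
theorem up' {k : ℤ} (hk : 0 ≤ k) (x : T) : η x + k ≤ η ((w.ψ ^ k) x) := by
  obtain ⟨k, rfl⟩ := Int.eq_ofNat_of_zero_le hk
  simpa using w.up hu k x

include hu in
theorem down {k : ℤ} (hk : k ≤ 0) (x : T) : η ((w.ψ ^ k) x) ≤ η x + k := by
  have := w.up' hu (neg_nonneg.2 hk) ((w.ψ ^ k) x)
  rw [← Homeomorph.mul_apply, ← zpow_add, neg_add_cancel, zpow_zero] at this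
  push_cast at this
  have e : η ((1 : T ≃ₜ T) x) = η x := rfl
  linarith

include hi hu in
theorem abs_le (g : G) (x : T) : |(w.n g : ℝ)| ≤ |η (w.sm g x) - η x| := by
  unfold sm
  rw [hi]
  rcases le_total 0 (w.n g) with h | h
  · have := w.up' hu h x
    rw [abs_of_nonneg (by exact_mod_cast h)]
    exact le_trans (by linarith) (le_abs_self _)
  · have := w.down hu h x
    rw [abs_of_nonpos (by exact_mod_cast h)]
    exact le_trans (by linarith) (neg_le_abs _)

include hi hu in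
theorem free (hf : ∀ (h : H) (x : T), h • x = x → h = 1) (g : G) (x : T) (e : w.sm g x = x) :
    g = 1 := by
  have h1 := w.abs_le hi hu g x
  rw [e, sub_self, abs_zero] at h1
  obtain ⟨h, rfl⟩ := (w.ker g).1 (by exact_mod_cast abs_nonpos_iff.1 h1)
  rw [w.sm_ι] at e
  rw [hf h x e, map_one]

include hi hu in
theorem prp (hc : Continuous η)
    (hp : ∀ A B : Set T, IsCompact A → IsCompact B → {h : H | ∃ x ∈ A, h • x ∈ B}.Finite)
    (A B : Set T) (hA : IsCompact A) (hB : IsCompact B) :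
    {g : G | ∃ x ∈ A, w.sm g x ∈ B}.Finite := by
  obtain ⟨a, ha⟩ := hA.exists_bound_of_continuousOn hc.continuousOn
  obtain ⟨b, hb⟩ := hB.exists_bound_of_continuousOn hc.continuousOn
  refine ((finite_Icc (-⌈a + b⌉) ⌈a + b⌉).biUnion fun k _ =>
    (hp _ B (hA.image (w.ψ ^ k).continuous) hB).image fun h => w.ι h * w.s ^ k).subset ?_
  rintro g ⟨x, hx, hg⟩
  have h1 := w.abs_le hi hu g x
  have h2 : |(w.n g : ℝ)| ≤ ⌈a + b⌉ := by
    have := ha x hx
    have := hb _ hg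
    have := abs_sub (η (w.sm g x)) (η x)
    have := Int.le_ceil (a + b)
    simp only [Real.norm_eq_abs] at *
    linarith
  refine mem_iUnion₂.2 ⟨w.n g, _root_.abs_le.1 (by exact_mod_cast h2),
    w.j (g * (w.s ^ w.n g)⁻¹), ⟨_, mem_image_of_mem _ hx, hg⟩, ?_⟩
  simp only
  rw [w.ι_j (w.n_red g), inv_mul_cancel_right]

include hu in
theorem cocpt {C : ℝ} (hC : ∀ x, η (w.ψ x) ≤ η x + C) {K : Set T}
    (hK : ∀ x, |η x| ≤ C → ∃ h : H, h • x ∈ K) (x : T) : ∃ g : G, w.sm g x ∈ K := by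
  classical
  obtain ⟨k, h1, h2⟩ := Int.exists_least_of_bdd (P := fun k : ℤ => 0 ≤ η ((w.ψ ^ k) x))
    ⟨-⌈|η x|⌉, fun k hk => by
      by_contra e
      have e1 : k < -⌈|η x|⌉ := not_le.1 e
      have e2 : (0 : ℤ) ≤ ⌈|η x|⌉ := Int.ceil_nonneg (abs_nonneg _)
      have := w.down hu (k := k) (by omega) x
      have e3 : (k : ℝ) < -⌈|η x|⌉ := by exact_mod_cast e1
      have := Int.le_ceil |η x|
      have := le_abs_self (η x)
      linarith⟩
    ⟨⌈|η x|⌉, by
      have := w.up' hu (Int.ceil_nonneg (abs_nonneg (η x))) x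
      have := Int.le_ceil |η x|
      have := neg_abs_le (η x)
      linarith⟩
  have h3 : η ((w.ψ ^ (k - 1)) x) < 0 := not_le.1 fun e => by have := h2 _ e; omega
  have h4 := hC ((w.ψ ^ (k - 1)) x)
  rw [← Homeomorph.mul_apply, ← zpow_one_add, add_sub_cancel] at h4
  obtain ⟨h, hh⟩ := hK ((w.ψ ^ k) x) (by rw [abs_of_nonneg h1]; linarith)
  exact ⟨w.ι h * w.s ^ k, by rwa [w.sm_mul, w.sm_ι, w.sm_pow]⟩

end Tw

section gm
variable {d : ℕ} {G T : Type} [Group G] [TopologicalSpace T] [MulAction G T]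

theorem pd_of (hp : ∀ A B : Set T, IsCompact A → IsCompact B → {g : G | ∃ x ∈ A, g • x ∈ B}.Finite) :
    ProperlyDiscontinuousSMul G T :=
  ⟨fun {A B} hA hB => (hp A B hA hB).subset fun _ ⟨_, ⟨x, hx, e⟩, h⟩ => ⟨x, hx, by
    have e' : _ • x = _ := e
    rwa [e']⟩⟩

theorem prp_of [ProperlyDiscontinuousSMul G T] (A B : Set T) (hA : IsCompact A) (hB : IsCompact B) :
    {g : G | ∃ x ∈ A, g • x ∈ B}.Finite :=
  (finite_disjoint_inter_image (Γ := G) hA hB).subset fun _ ⟨x, hx, h⟩ => ⟨_, ⟨x, hx, rfl⟩, h⟩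

theorem disj_of [T2Space T] [LocallyCompactSpace T] [ContinuousConstSMul G T]
    [ProperlyDiscontinuousSMul G T] (hf : ∀ (g : G) (x : T), g • x = x → g = 1) (x : T) :
    ∃ U ∈ 𝓝 x, ∀ g : G, ((g • ·) '' U ∩ U).Nonempty → g = 1 :=
  let ⟨U, h1, h2⟩ := ProperlyDiscontinuousSMul.exists_nhds_image_smul_eq_self G x
  ⟨U, h1, fun g hg => hf g x (h2 g hg)⟩

/-- another free proper cocompact action on the same manifold -/
theorem gm_of_gm (h : GM d G T) {G' : Type} [Group G'] [MulAction G' T]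
    (hc : ∀ g : G', Continuous fun x : T => g • x) (hf : ∀ (g : G') (x : T), g • x = x → g = 1)
    (hp : ∀ A B : Set T, IsCompact A → IsCompact B → {g : G' | ∃ x ∈ A, g • x ∈ B}.Finite)
    (hk : ∃ K : Set T, IsCompact K ∧ ∀ x, ∃ g : G', g • x ∈ K) : GM d G' T := by
  have := h.t2
  have := h.lc
  have : ContinuousConstSMul G' T := ⟨hc⟩
  have := pd_of hp
  exact ⟨h.t2, h.chart, ‹_›, hf, hp, hk, h.pc, h.wc, h.sc, disj_of hf⟩

variable {c : G → ℤ} (hc : ∀ a b, c (a * b) = c a + c b)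
include hc

/-- an equivariant height -/
theorem exists_height (h : GM d G T) :
    ∃ η : T → ℝ, Continuous η ∧ ∀ (g : G) x, η (g • x) = c g + η x := by
  obtain ⟨P⟩ := h.exists_pu
  refine ⟨P.av fun g => (c g : ℝ), (P.av _).continuous, fun g x => ?_⟩
  rw [P.av_act]
  simp only [hc, Int.cast_add]
  rw [P.av_add, P.av_const]

/-- bands are cocompact for the kernel -/
theorem band (h : GM d G T) {η : T → ℝ} (h1 : Continuous η) (h2 : ∀ (g : G) x, η (g • x) = c g + η x)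
    (C : ℝ) : ∃ K : Set T, IsCompact K ∧ ∀ x, |η x| ≤ C → ∃ g : G, c g = 0 ∧ g • x ∈ K := by
  have := h.cont
  obtain ⟨K, hK, hk⟩ := h.cocpt
  obtain ⟨a, ha⟩ := hK.exists_bound_of_continuousOn h1.continuousOn
  refine ⟨⋃ k ∈ Icc (-⌈a + C⌉) ⌈a + C⌉, (fun x => (Function.invFun c k)⁻¹ • x) '' K,
    (finite_Icc _ _).isCompact_biUnion fun k _ => hK.image (continuous_const_smul _),
    fun x hx => ?_⟩
  obtain ⟨g, hg⟩ := hk x
  have e : c (Function.invFun c (c g)) = c g := Function.invFun_eq ⟨g, rfl⟩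
  refine ⟨(Function.invFun c (c g))⁻¹ * g, by rw [hc, ad_inv hc, e]; ring, ?_⟩
  have h3 : |(c g : ℝ)| ≤ ⌈a + C⌉ := by
    have e1 := ha _ hg
    rw [h2, Real.norm_eq_abs] at e1
    have := abs_sub (c g + η x) (η x)
    rw [add_sub_cancel_right] at this
    have := Int.le_ceil (a + C)
    linarith
  exact mem_iUnion₂.2 ⟨c g, abs_le.1 (by exact_mod_cast h3), _, hg, (mul_smul _ _ _).symm⟩

omit hc in
/-- an equivariant map moves the height by a bounded amount -/
theorem bdd (h : GM d G T) {η : T → ℝ} (h1 : Continuous η) (h2 : ∀ (g : G) x, η (g • x) = c g + η x)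
    {φ : T → T} (hφ : Continuous φ) {α : G → G} (e : ∀ g x, φ (g • x) = α g • φ x)
    (hα : ∀ g, c (α g) = c g) : ∃ C : ℝ, ∀ x, |η (φ x) - η x| ≤ C := by
  obtain ⟨K, hK, hk⟩ := h.cocpt
  obtain ⟨a, ha⟩ := hK.exists_bound_of_continuousOn ((h1.comp hφ).sub h1).continuousOn
  refine ⟨a, fun x => ?_⟩
  obtain ⟨g, hg⟩ := hk x
  have := ha _ hg
  simp only [Pi.sub_apply, Function.comp, e, h2, hα, Real.norm_eq_abs] at this
  rwa [add_sub_add_left_eq_sub] at this

end gm

/-- the preimage of `nℤ` -/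
def Gn {G : Type} [Group G] (χ : G →* Multiplicative ℤ) (n : ℤ) : Subgroup G where
  carrier := {g | n ∣ (χ g).toAdd}
  one_mem' := by simp
  mul_mem' := fun {a b} ha hb => by
    simpa only [mem_ofPred_eq, map_mul, toAdd_mul] using dvd_add ha hb
  inv_mem' := fun {a} ha => by
    simpa only [mem_ofPred_eq, map_inv, toAdd_inv, dvd_neg] using ha

theorem mem_Gn {G : Type} [Group G] {χ : G →* Multiplicative ℤ} {n : ℤ} {g : G} :
    g ∈ Gn χ n ↔ n ∣ (χ g).toAdd := Iff.rfl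

/-- conjugation on `Gn` -/
def cj {G : Type} [Group G] (χ : G →* Multiplicative ℤ) (n : ℤ) (g₀ : G) : Gn χ n ≃* Gn χ n where
  toFun g := ⟨g₀ * g * g₀⁻¹, by simpa [mem_Gn] using mem_Gn.1 g.2⟩
  invFun g := ⟨g₀⁻¹ * g * g₀, by simpa [mem_Gn] using mem_Gn.1 g.2⟩
  left_inv g := Subtype.ext (by simp [mul_assoc])
  right_inv g := Subtype.ext (by simp [mul_assoc])
  map_mul' a b := Subtype.ext (by simp [mul_assoc])

theorem coe_cj {G : Type} [Group G] (χ : G →* Multiplicative ℤ) (n : ℤ) (g₀ : G) (g : Gn χ n) :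
    (cj χ n g₀ g : G) = g₀ * g * g₀⁻¹ := rfl

/-- **wrap up**: a homeomorphism which realises the conjugation by `g₀`, `χ g₀ = 1`, gives an action of
`Gn χ (m k + 1)` which agrees with the old one on `ker χ` -/
theorem wrap {d : ℕ} {G T : Type} [Group G] [TopologicalSpace T] (χ : G →* Multiplicative ℤ) {m : ℤ}
    (hm : 1 ≤ m) [MulAction (Gn χ m) T] (h : GM d (Gn χ m) T) {g₀ : G} (h₀ : (χ g₀).toAdd = 1)
    (φ : T ≃ₜ T) (hφ : ∀ (g : Gn χ m) x, φ (g • x) = cj χ m g₀ g • φ x) :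
    ∃ k : ℕ, ∀ k' : ℕ, k ≤ k' → ∃ _ : MulAction (Gn χ (m * k' + 1)) T, GM d (Gn χ (m * k' + 1)) T ∧
      ∀ (g : Gn χ m) (g' : Gn χ (m * k' + 1)) (x : T), χ g = 1 → (g : G) = g' → g' • x = g • x := by
  have := h.cont
  have hc : ∀ a b : Gn χ m, (χ (a * b : Gn χ m)).toAdd = (χ a).toAdd + (χ b).toAdd := by simp
  obtain ⟨η, η1, η2⟩ := exists_height (c := fun g : Gn χ m => (χ g).toAdd) hc h
  obtain ⟨C, hC⟩ := bdd (c := fun g : Gn χ m => (χ g).toAdd) h η1 η2 φ.continuous hφ (fun g => by simp [coe_cj])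
  refine ⟨⌈C⌉₊ + 1, fun k hk => ?_⟩
  set n : ℤ := m * k + 1 with hn
  have n0 : n ≠ 0 := by positivity
  let i : ∀ r : ℤ, χ.ker →* Gn χ r := fun r => Subgroup.inclusion fun g hg => by
    simp [mem_Gn, MonoidHom.mem_ker.1 hg]
  let _ : MulAction χ.ker T := MulAction.compHom T (i m)
  have hs : ∀ (a : χ.ker) (x : T), a • x = i m a • x := fun _ _ => rfl
  have : ContinuousConstSMul χ.ker T := ⟨fun a => continuous_const_smul (i m a)⟩
  have hp : ∀ r : ℤ, (χ (g₀ ^ r)).toAdd = r := fun r => by simp [h₀]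
  let t : Gn χ m := ⟨g₀ ^ (m * k), by rw [mem_Gn, hp]; exact dvd_mul_right _ _⟩
  let w : Tw χ.ker (Gn χ n) T :=
    { ι := i n
      inj := Subgroup.inclusion_injective _
      n := fun g => (χ g).toAdd / n
      n_mul := fun a b => by
        simp only [Subgroup.coe_mul, map_mul, toAdd_mul]
        exact Int.add_ediv_of_dvd_left a.2
      ker := fun g => ⟨fun e => ⟨⟨g, by
          have := Int.ediv_mul_cancel (mem_Gn.1 g.2)
          rw [e, zero_mul] at this
          exact MonoidHom.mem_ker.2 (toAdd_eq_zero.1 this.symm)⟩, rfl⟩, by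
        rintro ⟨a, rfl⟩
        have : χ (i n a : G) = 1 := a.2
        simp [this]⟩
      s := ⟨g₀ ^ n, by rw [mem_Gn, hp]⟩
      n_s := by simp only [hp]; exact Int.ediv_self n0
      ψ := φ.trans (Homeomorph.smul t)
      nrm := fun a a' x e => by
        show t • φ (i m a • x) = i m a' • t • φ x
        rw [hφ, ← mul_smul, ← mul_smul]
        congr 1
        refine Subtype.ext ?_
        have e' : (a' : G) = g₀ ^ n * a * (g₀ ^ n)⁻¹ := congrArg Subtype.val e
        show g₀ ^ (m * k) * (g₀ * a * g₀⁻¹) = a' * g₀ ^ (m * k)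
        rw [e', hn]; group }
  have hψ : ∀ x, η (w.ψ x) = m * k + η (φ x) := fun x => by
    show η (t • φ x) = _
    rw [η2, hp]; push_cast; ring
  have hi : ∀ (a : χ.ker) x, η (a • x) = η x := fun a x => by
    have : χ (i m a : G) = 1 := a.2
    rw [hs, η2, this]; simp
  have hu : ∀ x, η x + 1 ≤ η (w.ψ x) := fun x => by
    have h1 := (abs_le.1 (hC x)).1
    have h2 : (⌈C⌉₊ + 1 : ℝ) ≤ k := by exact_mod_cast hk
    have h3 : (1 : ℝ) ≤ m := by exact_mod_cast hm
    have := Nat.le_ceil C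
    have : (0 : ℝ) ≤ k := k.cast_nonneg
    rw [hψ]; nlinarith
  obtain ⟨K, hK, hb⟩ := band (c := fun g : Gn χ m => (χ g).toAdd) hc h η1 η2 (m * k + C)
  let _ := w.act
  refine ⟨w.act, gm_of_gm h w.continuous_sm
    (w.free hi hu fun a x e => (Subgroup.inclusion_injective _)
      ((h.free (i m a) x e).trans (map_one _).symm))
    (w.prp hi hu η1 fun A B hA hB => (h.prp A B hA hB).preimage (f := i m)
      (Subgroup.inclusion_injective _).injOn)
    ⟨K, hK, w.cocpt hu (C := m * k + C)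
      (fun x => by have := (abs_le.1 (hC x)).2; rw [hψ]; linarith) fun x hx => ?_⟩,
    fun g g' x e e' => ?_⟩
  · obtain ⟨g, e, hg⟩ := hb x hx
    exact ⟨⟨g, MonoidHom.mem_ker.2 (toAdd_eq_zero.1 e)⟩, hg⟩
  · rw [show g' = w.ι ⟨g, e⟩ from Subtype.ext e'.symm]
    exact w.sm_ι _ x

end Crest.Agent.N233.Wu

end
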