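import Crest.Agent.N233.Wu.Tw
import Crest.Agent.N233.Ae.Ext
import Crest.Agent.N233.Hyp.Mir
import Crest.Prelude.Def_ClassifyingComplex
import Crest.Agent.N233.Dv.Top
import Crest.Agent.N255.Mo.Col

-- ▼ part N233/Wu/Lift
section

/-!
# Row 233 (helper62): lifting homeomorphisms, descending equivariant maps, and `S0361` from the
non-existence of manifolds for the groups `Gn χ n`, `n` odd
-/

set_option autoImplicit false
open Set Filter Topology unitInterval

noncomputable section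

namespace Crest.Agent.N233.Wu

open Crest.Agent.N255.Uc

section
variable {G G' T T' M M' : Type} [Group G] [Group G'] [TopologicalSpace T] [TopologicalSpace T']
  [TopologicalSpace M] [TopologicalSpace M'] [MulAction G T] [MulAction G' T'] {p : T → M}
  {p' : T' → M'}

/-- an equivariant lift of a homeomorphism is a homeomorphism -/
theorem homeo_of_lift (hp : IsQuotientCoveringMap p G) (hp' : IsQuotientCoveringMap p' G')
    (α : G ≃* G') (h : M ≃ₜ M') {φ : T → T'} (c : Continuous φ) (l : ∀ x, p' (φ x) = h (p x))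
    (e : ∀ (g : G) x, φ (g • x) = α g • φ x) : ∃ ψ : T ≃ₜ T', ⇑ψ = φ := by
  have := hp'.isCancelSMul
  have h1 : IsLocalHomeomorph φ := by
    refine IsLocalHomeomorph.of_comp (g := p') ?_ hp'.isCoveringMap.isLocalHomeomorph c
    rw [show p' ∘ φ = h ∘ p from funext l]
    exact h.isLocalHomeomorph.comp hp.isCoveringMap.isLocalHomeomorph
  refine ⟨h1.toHomeomorphOfBijective ⟨fun x y k => ?_, fun z => ?_⟩, rfl⟩
  · obtain ⟨g, rfl⟩ := hp.apply_eq_iff_mem_orbit.1 (h.injective ((l x).symm.trans (k ▸ l y)))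
    have k' : α g • φ y = φ y := (e g y).symm.trans k
    have : α g = 1 := isCancelSMul_iff_eq_one_of_smul_eq.mp ‹_› _ _ k'
    rw [show g = 1 from α.injective (by rw [this, map_one])]
    exact one_smul _ _
  · obtain ⟨x, hx⟩ := hp.surjective (h.symm (p' z))
    obtain ⟨g, hg⟩ := hp'.apply_eq_iff_mem_orbit.1
      (show p' z = p' (φ x) by rw [l, hx, h.apply_symm_apply])
    exact ⟨α.symm g • x, by rw [e, α.apply_symm_apply]; exact hg⟩

/-- a map homotopic to a map covered by an `α`-equivariant map is covered by such a map -/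
theorem lift_htpy (hp : IsQuotientCoveringMap p G) (hp' : IsQuotientCoveringMap p' G')
    (α : G → G') {F : C(T, T')} (e : ∀ (g : G) x, F (g • x) = α g • F x) {f f' : C(M, M')}
    (l : ∀ x, p' (F x) = f (p x)) (H : f.Homotopic f') :
    ∃ φ : C(T, T'), (∀ x, p' (φ x) = f' (p x)) ∧ ∀ (g : G) x, φ (g • x) = α g • φ x := by
  obtain ⟨H⟩ := H
  have cov := hp'.isCoveringMap
  have := hp'.toContinuousConstSMul
  have cp := hp.continuous
  let K : C(I × T, M') := ⟨fun q => H (q.1, p q.2), by fun_prop⟩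
  have K0 : ∀ x, K (0, x) = p' (F x) := fun x => (H.apply_zero _).trans (l x).symm
  let L := cov.liftHomotopy K F K0
  have L1 : ∀ t x, p' (L (t, x)) = H (t, p x) := fun t x =>
    congrFun (cov.liftHomotopy_lifts K F K0) (t, x)
  have L0 : ∀ x, L (0, x) = F x := cov.liftHomotopy_zero K F K0
  refine ⟨⟨fun x => L (1, x), by fun_prop⟩, fun x => (L1 1 x).trans (H.apply_one _), fun g x => ?_⟩
  exact congrFun (cov.eq_of_comp_eq (A := I) (g₁ := fun t => L (t, g • x))
    (g₂ := fun t => α g • L (t, x)) (by fun_prop) (by fun_prop)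
    (funext fun t => by
      show p' (L (t, g • x)) = p' (α g • L (t, x))
      rw [hp'.map_smul, L1, L1, hp.map_smul]) 0 (by rw [L0, L0, e])) 1

/-- a homeomorphism homotopic to a map covered by an `α`-equivariant map lifts equivariantly -/
theorem lift_homeo (hp : IsQuotientCoveringMap p G) (hp' : IsQuotientCoveringMap p' G')
    (α : G ≃* G') {F : C(T, T')} (e : ∀ (g : G) x, F (g • x) = α g • F x) {f : C(M, M')}
    (l : ∀ x, p' (F x) = f (p x)) (h : M ≃ₜ M') (H : (h : C(M, M')).Homotopic f) :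
    ∃ φ : T ≃ₜ T', (∀ x, p' (φ x) = h (p x)) ∧ ∀ (g : G) x, φ (g • x) = α g • φ x := by
  obtain ⟨φ, h1, h2⟩ := lift_htpy hp hp' α e l H.symm
  obtain ⟨ψ, hψ⟩ := homeo_of_lift hp hp' α h φ.continuous h1 h2
  exact ⟨ψ, by rw [hψ]; exact h1, by rw [hψ]; exact h2⟩

/-- descending a family of maps -/
theorem desc (hp : IsQuotientCoveringMap p G) {P : Type} [TopologicalSpace P] {F : P × T → M'}
    (c : Continuous F) (e : ∀ t (g : G) x, F (t, g • x) = F (t, x)) :
    ∃ f : C(P × M, M'), ∀ t x, f (t, p x) = F (t, x) := by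
  have k : ∀ t x, F (t, Function.surjInv hp.surjective (p x)) = F (t, x) := fun t x => by
    obtain ⟨g, hg⟩ := hp.apply_eq_iff_mem_orbit.1 (Function.surjInv_eq hp.surjective (p x))
    rw [← e t g x]; exact congrArg (fun y => F (t, y)) hg.symm
  refine ⟨⟨fun q => F (q.1, Function.surjInv hp.surjective q.2), ?_⟩, k⟩
  rw [← (IsOpenQuotientMap.id.prodMap hp.isOpenQuotientMap).continuous_comp_iff]
  exact c.congr fun q => (k q.1 q.2).symm

theorem desc' (hp : IsQuotientCoveringMap p G) {F : T → M'} (c : Continuous F)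
    (e : ∀ (g : G) x, F (g • x) = F x) : ∃ f : C(M, M'), ∀ x, f (p x) = F x := by
  obtain ⟨f, hf⟩ := desc (P := Unit) hp (F := fun q => F q.2) (by fun_prop) fun _ => e
  exact ⟨⟨fun m => f ((), m), by fun_prop⟩, hf ()⟩

variable {d d' : ℕ}

theorem gm_lne (h : GM d G T) : Ae.LNE T := by
  obtain ⟨_⟩ := h.chart
  exact Ae.lne_euc d

theorem gm_map (h : GM d G T) (h' : GM d' G' T') [ContractibleSpace T'] (α : G →* G') :
    ∃ F : C(T, T'), ∀ (g : G) x, F (g • x) = α g • F x := by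
  have := h.t2
  have := h.lc
  have := h.sc
  have := h.cont
  have := pd_of h.prp
  have := h'.cont
  let _ : MulAction G T' := MulAction.compHom T' α
  have : ContinuousConstSMul G T' := ⟨fun g => continuous_const_smul (α g)⟩
  exact Ae.exists_map (gm_lne h') Ae.null_of_contractible h.free

theorem gm_htpy (h : GM d G T) [ContractibleSpace T] (hp : IsQuotientCoveringMap p G) {F : T → T}
    (c : Continuous F) (e : ∀ (g : G) x, F (g • x) = g • F x) {f : C(M, M)}
    (l : ∀ x, f (p x) = p (F x)) : f.Homotopic (.id M) := by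
  have := h.t2
  have := h.lc
  have := h.sc
  have := h.cont
  have := pd_of h.prp
  have cp := hp.continuous
  obtain ⟨H, h1, h2, h3⟩ := Ae.exists_htpy' (gm_lne h) Ae.null_of_contractible h.free c continuous_id
    e fun _ _ => rfl
  obtain ⟨K, hK⟩ := desc (P := I) hp (F := fun q => p (H (q.2, q.1))) (by fun_prop)
    fun t g x => by simp only [h1, hp.map_smul]
  refine ⟨⟨K, fun m => ?_, fun m => ?_⟩⟩
  · obtain ⟨x, rfl⟩ := hp.surjective m
    exact (hK 0 x).trans (by simp only [h2, l])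
  · obtain ⟨x, rfl⟩ := hp.surjective m
    exact (hK 1 x).trans (by simp only [h3]; rfl)

/-- isomorphic groups give homotopy equivalent quotients -/
theorem exists_he (h : GM d G T) (h' : GM d' G' T') [ContractibleSpace T] [ContractibleSpace T']
    (hp : IsQuotientCoveringMap p G) (hp' : IsQuotientCoveringMap p' G') (α : G ≃* G') :
    ∃ (f : ContinuousMap.HomotopyEquiv M M') (F : C(T, T')),
      (∀ (g : G) x, F (g • x) = α g • F x) ∧ ∀ x, p' (F x) = f.toFun (p x) := by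
  obtain ⟨F, hF⟩ := gm_map h h' α.toMonoidHom
  obtain ⟨F', hF'⟩ := gm_map h' h α.symm.toMonoidHom
  obtain ⟨f, hf⟩ := desc' hp (hp'.continuous.comp F.continuous)
    fun g x => by simp only [Function.comp, hF, hp'.map_smul]
  obtain ⟨f', hf'⟩ := desc' hp' (hp.continuous.comp F'.continuous)
    fun g x => by simp only [Function.comp, hF', hp.map_smul]
  refine ⟨⟨f, f', gm_htpy h hp (F'.continuous.comp F.continuous) (fun g x => ?_) fun x => ?_,
    gm_htpy h' hp' (F.continuous.comp F'.continuous) (fun g x => ?_) fun x => ?_⟩, F, hF,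
    fun x => (hf x).symm⟩
  · simp [hF, hF']
  · simp [hf, hf']
  · simp [hF, hF']
  · simp [hf, hf']

end

/-- the quotient manifold -/
theorem exists_quot {d : ℕ} {G T : Type} [Group G] [TopologicalSpace T] [MulAction G T]
    (h : GM d G T) : ∃ (M : Type) (_ : TopologicalSpace M)
      (_ : ChartedSpace (EuclideanSpace ℝ (Fin d)) M) (p : T → M), T2Space M ∧
      SecondCountableTopology M ∧ CompactSpace M ∧ ConnectedSpace M ∧ IsQuotientCoveringMap p G := by
  have := h.t2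
  have := h.lc
  have := h.sc
  have := h.cont
  have := h.pc
  have := pd_of h.prp
  have : IsCancelSMul G T := isCancelSMul_iff_eq_one_of_smul_eq.2 h.free
  obtain ⟨_⟩ := h.chart
  have hq := isQuotientCoveringMap_quotientMk_of_properlyDiscontinuousSMul (G := G) (E := T)
  refine ⟨MulAction.orbitRel.Quotient G T, inferInstance, inferInstance, _, inferInstance,
    ContinuousConstSMul.secondCountableTopology, ?_, hq.surjective.connectedSpace hq.continuous, hq⟩
  obtain ⟨K, hK, hk⟩ := h.cocpt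
  refine ⟨(hK.image hq.continuous).of_isClosed_subset isClosed_univ fun m _ => ?_⟩
  obtain ⟨x, rfl⟩ := hq.surjective m
  obtain ⟨g, hg⟩ := hk x
  exact ⟨_, hg, hq.map_smul g⟩

/-- the statement `S0361` -/
def S61 : Prop :=
  ∃ (M : Type) (_ : TopologicalSpace M) (_ : ChartedSpace (EuclideanSpace ℝ (Fin 4)) M),
    T2Space M ∧ SecondCountableTopology M ∧ CompactSpace M ∧ ConnectedSpace M ∧
    Crest.Topology.HasContractibleCover M ∧
    ∃ f : ContinuousMap.HomotopyEquiv M M,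
      ∀ h : M ≃ₜ M, ¬ ContinuousMap.Homotopic (h : C(M, M)) f.toFun

/-- `S0361` from an automorphism which is not realised by a homeomorphism of the universal cover -/
theorem s61_of_aut {G T : Type} [Group G] [TopologicalSpace T] [ContractibleSpace T] [MulAction G T]
    (h : GM 4 G T) (α : G ≃* G) (no : ∀ φ : T ≃ₜ T, ¬∀ (g : G) x, φ (g • x) = α g • φ x) : S61 := by
  obtain ⟨M, _, _, p, h1, h2, h3, h4, hp⟩ := exists_quot h
  obtain ⟨f, F, e, l⟩ := exists_he h h hp hp α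
  refine ⟨M, _, ‹_›, h1, h2, h3, h4, ⟨T, _, p, ‹_›, hp.isCoveringMap, hp.surjective⟩, f,
    fun φ H => ?_⟩
  obtain ⟨ψ, -, hψ⟩ := lift_homeo hp hp _ e l φ H
  exact no ψ hψ



/-- a homeomorphism of the quotients lifts to a homeomorphism which is equivariant for an isomorphism -/
theorem lift_any {G G' T T' M M' : Type} [Group G] [Group G'] [TopologicalSpace T]
    [TopologicalSpace T'] [TopologicalSpace M] [TopologicalSpace M'] [MulAction G T]
    [MulAction G' T'] {p : T → M} {p' : T' → M'} [SimplyConnectedSpace T]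
    [LocallyPathConnectedSpace T] [SimplyConnectedSpace T'] [LocallyPathConnectedSpace T']
    (hp : IsQuotientCoveringMap p G) (hp' : IsQuotientCoveringMap p' G') (h : M ≃ₜ M') :
    ∃ (φ : T ≃ₜ T') (α : G ≃* G'), (∀ x, p' (φ x) = h (p x)) ∧
      ∀ (g : G) x, φ (g • x) = α g • φ x := by
  have := hp.isCancelSMul
  have := hp'.isCancelSMul
  have := hp.toContinuousConstSMul
  have := hp'.toContinuousConstSMul
  obtain ⟨x₀⟩ : Nonempty T := inferInstance
  obtain ⟨y₀, hy⟩ := hp'.surjective (h (p x₀))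
  obtain ⟨φ, ⟨φ0, φ1⟩, -⟩ := hp'.isCoveringMap.existsUnique_continuousMap_lifts
    ⟨fun x => h (p x), h.continuous.comp hp.continuous⟩ x₀ y₀ hy
  obtain ⟨ψ, ⟨ψ0, ψ1⟩, -⟩ := hp.isCoveringMap.existsUnique_continuousMap_lifts
    ⟨fun y => h.symm (p' y), h.symm.continuous.comp hp'.continuous⟩ y₀ x₀ (by simp [hy])
  have l : ∀ x, p' (φ x) = h (p x) := congrFun φ1
  have l' : ∀ y, p (ψ y) = h.symm (p' y) := congrFun ψ1
  have k : ∀ x, ψ (φ x) = x := congrFun (hp.isCoveringMap.eq_of_comp_eq (g₁ := fun x => ψ (φ x))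
    (g₂ := id) (by fun_prop) continuous_id (funext fun x => by simp [l, l']) x₀ (by simp [φ0, ψ0]))
  have k' : ∀ y, φ (ψ y) = y := congrFun (hp'.isCoveringMap.eq_of_comp_eq (g₁ := fun x => φ (ψ x))
    (g₂ := id) (by fun_prop) continuous_id (funext fun x => by simp [l, l']) y₀ (by simp [φ0, ψ0]))
  have ex : ∀ g : G, ∃ g' : G', ∀ x, φ (g • x) = g' • φ x := fun g => by
    obtain ⟨g', hg⟩ := hp'.apply_eq_iff_mem_orbit.1
      (show p' (φ (g • x₀)) = p' (φ x₀) by rw [l, l, hp.map_smul])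
    exact ⟨g', congrFun (hp'.isCoveringMap.eq_of_comp_eq (g₁ := fun x => φ (g • x))
      (g₂ := fun x => g' • φ x) (by fun_prop) (by fun_prop)
      (funext fun x => by simp only [Function.comp, l, hp.map_smul, hp'.map_smul]) x₀ hg.symm)⟩
  have ex' : ∀ g' : G', ∃ g : G, ∀ y, ψ (g' • y) = g • ψ y := fun g' => by
    obtain ⟨g, hg⟩ := hp.apply_eq_iff_mem_orbit.1
      (show p (ψ (g' • y₀)) = p (ψ y₀) by rw [l', l', hp'.map_smul])
    exact ⟨g, congrFun (hp.isCoveringMap.eq_of_comp_eq (g₁ := fun x => ψ (g' • x))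
      (g₂ := fun x => g • ψ x) (by fun_prop) (by fun_prop)
      (funext fun x => by simp only [Function.comp, l', hp.map_smul, hp'.map_smul]) y₀ hg.symm)⟩
  choose a ha using ex
  choose b hb using ex'
  refine ⟨⟨⟨φ, ψ, k, k'⟩, φ.continuous, ψ.continuous⟩, ⟨⟨a, b, fun g => ?_, fun g => ?_⟩,
    fun g g' => ?_⟩, l, ha⟩
  · exact IsCancelSMul.right_cancel _ _ x₀ (by rw [← k (g • x₀), ha, hb, k])
  · exact IsCancelSMul.right_cancel _ _ y₀ (by rw [← k' (g • y₀), hb, ha, k'])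
  · exact IsCancelSMul.right_cancel _ _ (φ x₀) (by
      show a (g * g') • φ x₀ = (a g * a g') • φ x₀
      rw [← ha, mul_smul, mul_smul, ha, ha])

/-- the statement `S0360` -/
def S60 : Prop :=
  ∃ (M N : Type) (_ : TopologicalSpace M) (_ : TopologicalSpace N)
    (_ : ChartedSpace (EuclideanSpace ℝ (Fin 4)) M) (_ : ChartedSpace (EuclideanSpace ℝ (Fin 4)) N),
    T2Space M ∧ SecondCountableTopology M ∧ CompactSpace M ∧ ConnectedSpace M ∧
    T2Space N ∧ SecondCountableTopology N ∧ CompactSpace N ∧ ConnectedSpace N ∧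
    Crest.Topology.HasContractibleCover M ∧ Crest.Topology.HasContractibleCover N ∧
    Nonempty (ContinuousMap.HomotopyEquiv M N) ∧ IsEmpty (M ≃ₜ N) ∧
    ∀ x : M, Crest.GroupTheory.IsHyperbolicGroup (FundamentalGroup M x)

/-- **`S0360` from the universal covers**: two contractible `G`-manifolds without a homeomorphism which is
equivariant up to an automorphism -/
theorem s60_of {G T T' : Type} [Group G] [TopologicalSpace T] [ContractibleSpace T] [MulAction G T]
    [TopologicalSpace T'] [ContractibleSpace T'] [MulAction G T'] (h : GM 4 G T) (h' : GM 4 G T')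
    (hy : Crest.GroupTheory.IsHyperbolicGroup G)
    (no : ∀ (φ : T ≃ₜ T') (α : G ≃* G), ¬∀ (g : G) x, φ (g • x) = α g • φ x) : S60 := by
  obtain ⟨M, _, _, p, h1, h2, h3, h4, hp⟩ := exists_quot h
  obtain ⟨N, _, _, p', h1', h2', h3', h4', hp'⟩ := exists_quot h'
  obtain ⟨f, -⟩ := exists_he h h' hp hp' (MulEquiv.refl G)
  obtain ⟨_⟩ := h.chart
  obtain ⟨_⟩ := h'.chart
  have := ChartedSpace.locallyPathConnectedSpace (EuclideanSpace ℝ (Fin 4)) T
  have := ChartedSpace.locallyPathConnectedSpace (EuclideanSpace ℝ (Fin 4)) T'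
  refine ⟨M, N, _, _, ‹_›, ‹_›, h1, h2, h3, h4, h1', h2', h3', h4',
    ⟨T, _, p, ‹_›, hp.isCoveringMap, hp.surjective⟩,
    ⟨T', _, p', ‹_›, hp'.isCoveringMap, hp'.surjective⟩, ⟨f⟩, ⟨fun φ => ?_⟩, fun x => ?_⟩
  · obtain ⟨ψ, α, -, e⟩ := lift_any hp hp' φ
    exact no ψ α e
  · obtain ⟨y, rfl⟩ := hp.surjective x
    exact Hyp.hyp_of_mulEquiv hy
      ((hp.fundamentalGroupEquiv ⟨y, rfl⟩).trans (MulEquiv.inv' G).symm)

end Crest.Agent.N233.Wu

end
end

-- ▼ part N233/Wu/Syl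
section

/-!
# Row 233 (helper62): the Sylow argument of note 514 and the wrap-up for `G₁`
-/

set_option autoImplicit false
open Set Filter Topology

noncomputable section

namespace Crest.Agent.N233.Wu

open Crest.Agent.N255.Uc

theorem syl_fin {Q : Type} [Group Q] [Finite Q] {p : ℕ} [Fact p.Prime] {P S : Subgroup Q}
    (hP : IsPGroup p P) (hN : Subgroup.normalizer (P : Set Q) ≤ P) (hS : P ≤ S) {a : Q}
    (ha : ∀ g ∈ P, a * g * a⁻¹ ∈ S) : a ∈ S := by
  obtain ⟨R, hR⟩ := hP.exists_le_sylow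
  have hn := R.2.isNilpotent
  have e : P.subgroupOf R = ⊤ :=
    normalizerCondition_iff_only_full_group_self_normalizing.1 Group.normalizerCondition_of_isNilpotent _
      (by rw [← Subgroup.subgroupOf_normalizer_eq hR, le_antisymm hN Subgroup.le_normalizer])
  have e' : (R : Subgroup Q) = P := le_antisymm (Subgroup.subgroupOf_eq_top.1 e) hR
  have h1 : (R : Subgroup Q) ≤ S := e' ▸ hS
  have h2 : ((a • R : Sylow p Q) : Subgroup Q) ≤ S := by
    rintro _ ⟨g, hg, rfl⟩
    exact ha g (e' ▸ hg)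
  obtain ⟨σ, hσ⟩ := MulAction.exists_smul_eq S ((a • R).subtype h2) (R.subtype h1)
  simp_rw [Sylow.smul_subtype, Subgroup.smul_def, smul_smul] at hσ
  have h3 := Sylow.smul_eq_iff_mem_normalizer.1 (Sylow.subtype_injective hσ)
  have h4 : (σ : Q) * a ∈ S := hS (hN (by rw [← e']; exact h3))
  exact (S.mul_mem_cancel_left σ.2).1 h4

/-- `I ≤ P ≤ S`, `P / I` a self-normalising `p`-group, `a P a⁻¹ ≤ S`: then `a ∈ S` -/
theorem syl {A : Type} [Group A] {p : ℕ} [Fact p.Prime] {I P S : Subgroup A} [I.Normal]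
    [I.FiniteIndex] (hI : I ≤ P) (hP : ∀ g ∈ P, ∃ r : ℕ, g ^ p ^ r ∈ I)
    (hN : Subgroup.normalizer (P : Set A) ≤ P) (hS : P ≤ S) {a : A}
    (ha : ∀ g ∈ P, a * g * a⁻¹ ∈ S) : a ∈ S := by
  have k : ∀ B : Subgroup A, I ≤ B → (B.map (QuotientGroup.mk' I)).comap (QuotientGroup.mk' I) = B :=
    fun B h => Subgroup.comap_map_eq_self (by rwa [QuotientGroup.ker_mk'])
  rw [← k S (hI.trans hS)]
  refine syl_fin (p := p) (P := P.map (QuotientGroup.mk' I)) ?_ (fun q hq => ?_)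
    (Subgroup.map_mono hS) ?_
  · rintro ⟨_, g, hg, rfl⟩
    obtain ⟨r, hr⟩ := hP g hg
    exact ⟨r, Subtype.ext (by
      show (QuotientGroup.mk' I g) ^ p ^ r = 1
      rw [← map_pow]; exact (QuotientGroup.eq_one_iff _).2 hr)⟩
  · obtain ⟨g, rfl⟩ := QuotientGroup.mk'_surjective I q
    have := Subgroup.le_normalizer_comap (H := P.map (QuotientGroup.mk' I)) (QuotientGroup.mk' I) hq
    rw [k P hI] at this
    exact ⟨g, hN this, rfl⟩
  · rintro _ ⟨g, hg, rfl⟩
    exact ⟨_, ha g hg, by simp⟩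

section
variable {G₀ T : Type} [Group G₀] [TopologicalSpace T] [MulAction G₀ T]

/-- the automorphisms which are realised by homeomorphisms of the twisted action -/
def St (G : Subgroup G₀) (θ : G₀ →* G₀) (T : Type) [TopologicalSpace T] [MulAction G₀ T] :
    Subgroup (MulAut G) where
  carrier := {β | ∃ k : T ≃ₜ T, ∀ (g : G) x, k (θ g • x) = θ (β g) • k x}
  one_mem' := ⟨.refl T, fun _ _ => rfl⟩
  mul_mem' := fun ⟨k, hk⟩ ⟨k', hk'⟩ => ⟨k'.trans k, fun g x => by simp [hk, hk']⟩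
  inv_mem' := fun {β} ⟨k, hk⟩ => ⟨k.symm, fun g x => k.injective (by rw [hk]; simp)⟩

/-- **Sylow step**: a homeomorphism which is equivariant up to some automorphism can be corrected -/
theorem syl_step [ContinuousConstSMul G₀ T] (G : Subgroup G₀) [G.Normal]
    (h2 : ∀ g : G₀, ∃ r : ℕ, g ^ 2 ^ r ∈ G) (fin : (MulAut.conj (G := G)).range.FiniteIndex)
    (rig : Subgroup.normalizer ((MulAut.conjNormal (H := G)).range : Set (MulAut G)) ≤
      (MulAut.conjNormal (H := G)).range)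
    (θ : G₀ →* G₀) (φ : T ≃ₜ T) (α : G ≃* G) (hφ : ∀ (g : G) x, φ ((g : G₀) • x) = θ (α g) • φ x) :
    ∃ k : T ≃ₜ T, ∀ (g : G) x, k ((g : G₀) • x) = θ g • k x := by
  have : (MulAut.conj (G := G)).range.Normal := ⟨by
    rintro _ ⟨g, rfl⟩ β
    exact ⟨β g, by ext x; simp⟩⟩
  have hc : ∀ g : G, MulAut.conjNormal (H := G) (g : G₀) = MulAut.conj g := fun g => by
    ext x; simp
  have : Fact (Nat.Prime 2) := ⟨Nat.prime_two⟩
  obtain ⟨k, hk⟩ : (α : MulAut G) ∈ St G θ T := by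
    refine syl (p := 2) (I := (MulAut.conj (G := G)).range) (P := (MulAut.conjNormal (H := G)).range)
      ?_ ?_ rig ?_ ?_
    · rintro _ ⟨g, rfl⟩
      exact ⟨g, hc g⟩
    · rintro _ ⟨g, rfl⟩
      obtain ⟨r, hr⟩ := h2 g
      exact ⟨r, ⟨_, hr⟩, by rw [← hc, ← map_pow]⟩
    · rintro _ ⟨g, rfl⟩
      exact ⟨Homeomorph.smul (θ g), fun a x => by simp [← mul_smul]⟩
    · rintro _ ⟨g, rfl⟩
      refine ⟨φ.symm.trans ((Homeomorph.smul g).trans φ), fun a x => ?_⟩
      obtain ⟨a, rfl⟩ := α.surjective a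
      obtain ⟨x, rfl⟩ := φ.surjective x
      have e := hφ (MulAut.conjNormal g a) (g • x)
      simp only [Homeomorph.trans_apply, ← hφ, Homeomorph.symm_apply_apply, Homeomorph.smul_apply,
        MulAut.mul_apply, MulAut.inv_apply, MulEquiv.symm_apply_apply]
      simp [← mul_smul]
  exact ⟨φ.trans k.symm, fun g x => k.injective (by simp [hk, hφ])⟩

end

section
variable {d : ℕ} {G G' T : Type} [Group G] [Group G'] [TopologicalSpace T]

/-- transport of the action along an isomorphism -/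
theorem gm_congr [MulAction G T] (h : GM d G T) (e : G' ≃* G) :
    @GM d G' T _ _ (MulAction.compHom T e.toMonoidHom) := by
  let _ := MulAction.compHom T e.toMonoidHom
  have := h.cont
  obtain ⟨K, hK, hk⟩ := h.cocpt
  refine gm_of_gm h (fun g => continuous_const_smul (e g))
    (fun g x k => e.injective ((h.free _ x k).trans (map_one e).symm))
    (fun A B hA hB => (h.prp A B hA hB).preimage (f := e) e.injective.injOn) ⟨K, hK, fun x => ?_⟩
  obtain ⟨g, hg⟩ := hk x
  exact ⟨e.symm g, by rw [← e.apply_symm_apply g] at hg; exact hg⟩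

/-- two injective homomorphisms with the same range -/
def eqvOf {E : Type} [Group E] {ι : G →* E} {ι' : G' →* E} (h : Function.Injective ι)
    (h' : Function.Injective ι') (e : ι.range = ι'.range) : G ≃* G' :=
  ((MonoidHom.ofInjective h).trans (MulEquiv.subgroupCongr e)).trans (MonoidHom.ofInjective h').symm

theorem eqvOf_spec {E : Type} [Group E] {ι : G →* E} {ι' : G' →* E} (h : Function.Injective ι)
    (h' : Function.Injective ι') (e : ι.range = ι'.range) (g : G) : ι' (eqvOf h h' e g) = ι g :=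
  MonoidHom.apply_ofInjective_symm h' _

end

/-- no closed aspherical manifold for the groups `E₁ ∩ χ⁻¹(nℤ)`, `n` odd, in whatever incarnation -/
def NoOdd {E : Type} [Group E] (χ : E →* Multiplicative ℤ) (E₁ : Subgroup E) : Prop :=
  ∀ n : ℤ, Odd n → 1 ≤ n → ∃ (G' : Type) (_ : Group G') (ι' : G' →* E), Function.Injective ι' ∧
    (∀ e, e ∈ ι'.range ↔ e ∈ E₁ ∧ n ∣ (χ e).toAdd) ∧
    ∀ (T : Type) [TopologicalSpace T] [MulAction G' T], ¬GM 4 G' T

section
variable {E G₀ T : Type} [Group E] [Group G₀] [TopologicalSpace T] [MulAction G₀ T]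
  {χ : E →* Multiplicative ℤ} {τ : E} {ι : G₀ →* E} {E₁ : Subgroup E} {θ : G₀ →* G₀}

/-- **KEY**: the conjugation by `τ` on `G₁ = ι⁻¹ E₁` is not realised by a homeomorphism -/
theorem key (hτ : (χ τ).toAdd = 1) (inj : Function.Injective ι)
    (rng : ∀ e, e ∈ ι.range ↔ 2 ∣ (χ e).toAdd) (h₁ : τ ∈ E₁) (h : GM 4 (E₁.comap ι) T)
    (hθ : ∀ g, ι (θ g) = τ * ι g * τ⁻¹) (no : NoOdd χ E₁) (k : T ≃ₜ T) :
    ¬∀ g : G₀, ι g ∈ E₁ → ∀ x, k (g • x) = θ g • k x := fun hk => by
  let χ₁ : E₁ →* Multiplicative ℤ := χ.comp E₁.subtype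
  have i1 : ∀ n, Function.Injective (E₁.subtype.comp (Gn χ₁ n).subtype) := fun n =>
    Subtype.val_injective.comp Subtype.val_injective
  have r1 : ∀ n e, e ∈ (E₁.subtype.comp (Gn χ₁ n).subtype).range ↔ e ∈ E₁ ∧ n ∣ (χ e).toAdd :=
    fun n e => ⟨by rintro ⟨g, rfl⟩; exact ⟨g.1.2, g.2⟩, fun ⟨a, b⟩ => ⟨⟨⟨e, a⟩, b⟩, rfl⟩⟩
  have i2 : Function.Injective (ι.comp (E₁.comap ι).subtype) := inj.comp Subtype.val_injective
  have r2 : (E₁.subtype.comp (Gn χ₁ 2).subtype).range = (ι.comp (E₁.comap ι).subtype).range := by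
    ext e
    rw [r1]
    exact ⟨fun ⟨a, b⟩ => by obtain ⟨g, rfl⟩ := (rng e).2 b; exact ⟨⟨g, a⟩, rfl⟩, by
      rintro ⟨g, rfl⟩; exact ⟨g.2, (rng _).1 ⟨_, rfl⟩⟩⟩
  let ε := eqvOf (i1 2) i2 r2
  have hε : ∀ g, ι (ε g) = (g : E₁) := eqvOf_spec (i1 2) i2 r2
  let _ := MulAction.compHom T ε.toMonoidHom
  obtain ⟨m, hm⟩ := wrap χ₁ (m := 2) (by norm_num) (gm_congr h ε) (g₀ := ⟨τ, h₁⟩) hτ k fun g x => by
    show k ((ε g : G₀) • x) = (ε (cj χ₁ 2 ⟨τ, h₁⟩ g) : G₀) • k x
    rw [hk _ (ε g).2, show θ (ε g) = ε (cj χ₁ 2 ⟨τ, h₁⟩ g) from inj (by rw [hθ, hε, hε]; rfl)]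
  obtain ⟨_, hg, -⟩ := hm m le_rfl
  obtain ⟨G', _, ι', a, b, c⟩ := no (2 * m + 1) ⟨m, rfl⟩ (by omega)
  exact @c T _ (_) (gm_congr hg (eqvOf a (i1 _) (by ext e; rw [b, r1])))

/-- `S0361` from the non-existence theorem -/
theorem s61_of_no [ContractibleSpace T] (hτ : (χ τ).toAdd = 1) (inj : Function.Injective ι)
    (rng : ∀ e, e ∈ ι.range ↔ 2 ∣ (χ e).toAdd) (h₁ : τ ∈ E₁) (h : GM 4 (E₁.comap ι) T)
    (θ : G₀ ≃* G₀) (hθ : ∀ g, ι (θ g) = τ * ι g * τ⁻¹) (no : NoOdd χ E₁) : S61 := by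
  have m : ∀ g, ι (θ g) ∈ E₁ ↔ ι g ∈ E₁ := fun g => by
    rw [hθ, E₁.mul_mem_cancel_right (E₁.inv_mem h₁), E₁.mul_mem_cancel_left h₁]
  let α : E₁.comap ι ≃* E₁.comap ι :=
    { toFun := fun g => ⟨θ g, (m g).2 g.2⟩
      invFun := fun g => ⟨θ.symm g, (m _).1 (by rw [θ.apply_symm_apply]; exact g.2)⟩
      left_inv := fun g => Subtype.ext (θ.symm_apply_apply _)
      right_inv := fun g => Subtype.ext (θ.apply_symm_apply _)
      map_mul' := fun a b => Subtype.ext (map_mul θ _ _) }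
  exact s61_of_aut h α fun k hk =>
    key (θ := θ.toMonoidHom) hτ inj rng h₁ h hθ no k fun g hg x => hk ⟨g, hg⟩ x

/-- the same space with the twisted action -/
def Twi (T : Type) : Type := T

/-- `S0360` from the non-existence theorem, finiteness of `Out G` and rigidity -/
theorem s60_of_no [ContractibleSpace T] [ContinuousConstSMul G₀ T] (hτ : (χ τ).toAdd = 1)
    (inj : Function.Injective ι) (rng : ∀ e, e ∈ ι.range ↔ 2 ∣ (χ e).toAdd) (h₁ : τ ∈ E₁)
    (h : GM 4 (E₁.comap ι) T) (θ : G₀ ≃* G₀) (hθ : ∀ g, ι (θ g) = τ * ι g * τ⁻¹) (no : NoOdd χ E₁)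
    (G : Subgroup G₀) [G.Normal] (hle : E₁.comap ι ≤ G) (hG : GM 4 G T)
    (hG' : GM 4 (G.map θ.toMonoidHom) T) (hy : Crest.GroupTheory.IsHyperbolicGroup G)
    (h2 : ∀ g : G₀, ∃ r : ℕ, g ^ 2 ^ r ∈ G) (fin : (MulAut.conj (G := G)).range.FiniteIndex)
    (rig : Subgroup.normalizer ((MulAut.conjNormal (H := G)).range : Set (MulAut G)) ≤
      (MulAut.conjNormal (H := G)).range) : S60 := by
  let _ : TopologicalSpace (Twi T) := ‹TopologicalSpace T›
  have : ContractibleSpace (Twi T) := ‹ContractibleSpace T›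
  let _ : MulAction G (Twi T) := MulAction.compHom T (θ.subgroupMap G).toMonoidHom
  refine s60_of (T' := Twi T) hG (gm_congr hG' (θ.subgroupMap G)) hy fun φ α hφ => ?_
  obtain ⟨k, hk⟩ := syl_step G h2 fin rig θ.toMonoidHom (T := T) φ α hφ
  exact key (θ := θ.toMonoidHom) hτ inj rng h₁ h hθ no k fun g hg x => hk ⟨g, hle hg⟩ x

end

end Crest.Agent.N233.Wu

end
end

-- ▼ part N233/Wu/Cc
section

/-!
# Row 233 (helper62): the reductions of `S0360`, `S0361` for the Davis construction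
-/

set_option autoImplicit false
open Set Filter Topology

noncomputable section

namespace Crest.Agent.N233.Wu

open Crest.Agent.N255.Uc Crest.Agent.N255.Ra Dv

theorem wc_of_contr (X : Type) [TopologicalSpace X] [ContractibleSpace X] : N222.C.WC X :=
  N255.Mo.wc_of_null fun C _ =>
    (id_nullhomotopic X).comp_left (⟨Subtype.val, continuous_subtype_val⟩ : C(C, X))

variable {S : Type} {Γ : SimpleGraph S} {F : Type} [Group F]

/-- the universal cover of the Davis manifold -/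
theorem gm_fill {ρ : F →* (Γ ≃g Γ)} {T : Type} [TopologicalSpace T] [MulAction F T] [Countable S]
    [Countable F] (Φ : FillG ρ T) (c : Cmb F T) (G : Subgroup (G0 ρ)) [G.FiniteIndex] (hG : Tf G) :
    GM 4 G Φ.Mt := by
  have := Φ.contractible c
  refine ⟨inferInstance, ⟨inferInstance⟩, inferInstance, Φ.free_G hG, prp_of, ?_, inferInstance,
    wc_of_contr _, ChartedSpace.secondCountable_of_sigmaCompact E4 _, disj_of (Φ.free_G hG)⟩
  obtain ⟨K, hK, h⟩ := Φ.cocompact
  have : Finite (G0 ρ ⧸ G) := Subgroup.finite_quotient_of_finiteIndex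
  refine ⟨_, isCompact_iUnion fun q : G0 ρ ⧸ G => hK.image (continuous_const_smul q.out⁻¹),
    fun m => ?_⟩
  obtain ⟨g, hg⟩ := h m
  obtain ⟨k, hk⟩ := QuotientGroup.mk_out_eq_mul G g
  refine ⟨k⁻¹, mem_iUnion.2 ⟨g, _, hg, ?_⟩⟩
  change _ • g • m = (k⁻¹ : G).1 • m
  rw [hk, smul_smul]
  simp

variable (ρ : F →* (Γ ≃g Γ)) (χ : F →* Multiplicative ℤ)

/-- the action of `χ⁻¹(nℤ)` -/
abbrev rn (n : ℤ) : Gn χ n →* (Γ ≃g Γ) := ρ.comp (Gn χ n).subtype

/-- the inclusion into the big group -/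
def io (n : ℤ) : G0 (rn ρ χ n) →* G0 ρ := MonoidHom.mk' (fun g => ⟨g.left, g.right⟩) fun _ _ => rfl

theorem io_inj (n : ℤ) : Function.Injective (io ρ χ n) := fun _ _ h =>
  SemidirectProduct.ext (congrArg (·.left) h) (Subtype.ext (congrArg (·.right) h))

/-- the character of the big group -/
def χ0 : G0 ρ →* Multiplicative ℤ := χ.comp SemidirectProduct.rightHom

theorem io_rng (n : ℤ) (e : G0 ρ) : e ∈ (io ρ χ n).range ↔ n ∣ (χ0 ρ χ e).toAdd :=
  ⟨by rintro ⟨g, rfl⟩; exact g.right.2, fun h => ⟨⟨e.left, ⟨e.right, h⟩⟩, rfl⟩⟩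

/-- invariant subgroups of the Coxeter group -/
def Inv (N : Subgroup (W Γ)) : Prop := ∀ f, ∀ w ∈ N, aut (ρ f) w ∈ N

variable {ρ} in
/-- `N ⋊ F` -/
def Sd {N : Subgroup (W Γ)} (h : Inv ρ N) : Subgroup (G0 ρ) where
  carrier := {g | g.left ∈ N}
  one_mem' := N.one_mem
  mul_mem' := fun ha hb => N.mul_mem ha (h _ _ hb)
  inv_mem' := fun ha => h _ _ (N.inv_mem ha)

variable {ρ} in
/-- `N ⋊ χ⁻¹(nℤ)` -/
def Gs {N : Subgroup (W Γ)} (h : Inv ρ N) (n : ℤ) : Subgroup (G0 (rn ρ χ n)) :=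
  (Sd h).comap (io ρ χ n)

variable {ρ χ}

theorem mem_Gs {N : Subgroup (W Γ)} {h : Inv ρ N} {n : ℤ} {g : G0 (rn ρ χ n)} :
    g ∈ Gs χ h n ↔ g.left ∈ N := Iff.rfl


theorem Gs_fi {N : Subgroup (W Γ)} [N.FiniteIndex] (h : Inv ρ N) (n : ℤ) : (Gs χ h n).FiniteIndex := by
  have : Finite (W Γ ⧸ N) := Subgroup.finite_quotient_of_finiteIndex
  have : Finite (G0 (rn ρ χ n) ⧸ Gs χ h n) := by
    refine Finite.of_surjective (fun q : W Γ ⧸ N =>
      (QuotientGroup.mk (SemidirectProduct.inl q.out) : G0 (rn ρ χ n) ⧸ Gs χ h n)) fun q => ?_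
    obtain ⟨g, rfl⟩ := QuotientGroup.mk_surjective q
    refine ⟨g.left, QuotientGroup.eq.2 (mem_Gs.2 ?_)⟩
    obtain ⟨k, hk⟩ := QuotientGroup.mk_out_eq_mul N g.left
    simp [hk]
  exact Subgroup.finiteIndex_of_finite_quotient

variable (ρ χ) in
/-- conjugation by an element of `F` -/
def th (n : ℤ) (τ : F) : G0 (rn ρ χ n) ≃* G0 (rn ρ χ n) where
  toFun g := ⟨aut (ρ τ) g.left, cj χ n τ g.right⟩
  invFun g := ⟨(aut (ρ τ)).symm g.left, (cj χ n τ).symm g.right⟩
  left_inv g := by ext <;> simp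
  right_inv g := by ext <;> simp
  map_mul' a b := by
    refine SemidirectProduct.ext ?_ (map_mul (cj χ n τ) _ _)
    show autHom ρ τ (a.left * autHom ρ a.right b.left) =
      autHom ρ τ a.left * autHom ρ (τ * a.right * τ⁻¹) (autHom ρ τ b.left)
    rw [map_mul, ← MulAut.mul_apply, ← MulAut.mul_apply, ← map_mul, ← map_mul, inv_mul_cancel_right]

theorem io_th (n : ℤ) (τ : F) (g : G0 (rn ρ χ n)) :
    io ρ χ n (th ρ χ n τ g) = .inr τ * io ρ χ n g * (SemidirectProduct.inr τ)⁻¹ := by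
  refine SemidirectProduct.ext ?_ rfl
  simp [io, th, autHom_apply]

theorem tf_th {n : ℤ} (τ : F) {G : Subgroup (G0 (rn ρ χ n))} (h : Tf G) :
    Tf (G.map (th ρ χ n τ).toMonoidHom) := by
  rintro _ ⟨g, hg, rfl⟩ e v A hA k
  have e' : g.right = 1 := (cj χ n τ).injective (e.trans (map_one _).symm)
  have k' := map_mem_WT (ρ τ).symm.toHom k
  have a : ∀ w, map (ρ τ).symm.toHom (aut (ρ τ) w) = w := (aut (ρ τ)).symm_apply_apply
  rw [map_mul, map_mul, map_inv] at k'
  have := h g hg e' (map (ρ τ).symm.toHom v) _ ⟨hA.1.image _, by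
    rintro _ ⟨s, hs, rfl⟩ _ ⟨t, ht, rfl⟩ ne
    exact (ρ τ).symm.toHom.map_adj (hA.2 hs ht fun e => ne (e ▸ rfl))⟩ (a g.left ▸ k')
  show aut (ρ τ) g.left = 1
  rw [this, map_one]

theorem noOdd {N : Subgroup (W Γ)} (h : Inv ρ N)
    (no : ∀ n : ℤ, Odd n → 1 ≤ n → ∀ (T : Type) [TopologicalSpace T] [MulAction (Gs χ h n) T],
      ¬GM 4 (Gs χ h n) T) : NoOdd (χ0 ρ χ) (Sd h) := fun n h1 h2 =>
  ⟨Gs χ h n, _, (io ρ χ n).comp (Gs χ h n).subtype, (io_inj ρ χ n).comp Subtype.val_injective,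
    fun e => ⟨by rintro ⟨g, rfl⟩; exact ⟨g.2, g.1.right.2⟩,
      fun ⟨a, b⟩ => ⟨⟨⟨e.left, ⟨e.right, b⟩⟩, a⟩, rfl⟩⟩, no n h1 h2⟩






section main
variable [Countable S] [Countable F] {T : Type} [TopologicalSpace T] [MulAction (Gn χ 2) T]
  (Φ : FillG (rn ρ χ 2) T) (c : Cmb (Gn χ 2) T) {τ : F} (hτ : (χ τ).toAdd = 1)
  {N : Subgroup (W Γ)} [N.FiniteIndex] (h : Inv ρ N)
  (no : ∀ n : ℤ, Odd n → 1 ≤ n → ∀ (T : Type) [TopologicalSpace T] [MulAction (Gs χ h n) T],
    ¬GM 4 (Gs χ h n) T)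
include Φ c hτ no

/-- **`S0361`** from a filling over `χ⁻¹(2ℤ)` and the non-existence theorem -/
theorem s61_con (tf : Tf (Gs χ h 2)) : S61 :=
  haveI := Φ.contractible c
  haveI := Gs_fi (χ := χ) h 2
  s61_of_no (χ := χ0 ρ χ) (τ := .inr τ) hτ (io_inj ρ χ 2) (io_rng ρ χ 2) (E₁ := Sd h) N.one_mem
    (gm_fill Φ c (Gs χ h 2) tf) (th ρ χ 2 τ) (io_th 2 τ) (noOdd h no)

/-- **`S0360`** from a filling over `χ⁻¹(2ℤ)`, the non-existence theorem, `Out G` finite and rigidity -/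
theorem s60_con (G : Subgroup (G0 (rn ρ χ 2))) [G.Normal] (le : Gs χ h 2 ≤ G) (tf : Tf G)
    (hy : Crest.GroupTheory.IsHyperbolicGroup (G0 (rn ρ χ 2)))
    (h2 : ∀ g, ∃ r : ℕ, g ^ 2 ^ r ∈ G) (fin : (MulAut.conj (G := G)).range.FiniteIndex)
    (rig : Subgroup.normalizer ((MulAut.conjNormal (H := G)).range : Set (MulAut G)) ≤
      (MulAut.conjNormal (H := G)).range) : S60 := by
  have := Φ.contractible c
  have := Gs_fi (χ := χ) h 2
  have : G.FiniteIndex := Subgroup.finiteIndex_of_le le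
  have : (G.map (th ρ χ 2 τ).toMonoidHom).FiniteIndex :=
    ⟨by rw [Subgroup.index_map_of_bijective (th ρ χ 2 τ).bijective]; exact Subgroup.FiniteIndex.index_ne_zero⟩
  exact s60_of_no (χ := χ0 ρ χ) (τ := .inr τ) hτ (io_inj ρ χ 2) (io_rng ρ χ 2) (E₁ := Sd h) N.one_mem
    (gm_fill Φ c (Gs χ h 2) (tf.mono le)) (th ρ χ 2 τ) (io_th 2 τ) (noOdd h no) G le
    (gm_fill Φ c G tf) (gm_fill Φ c _ (tf_th τ tf)) (Hyp.hyp_subgroup hy G) h2 fin rig

end main

end Crest.Agent.N233.Wu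

end
end

-- ▼ part N233/Wu/Rig

/-!
# Row 233 (helper62): the normaliser of `c(G₀)` in `Aut G` from the automorphisms of `G₀`
-/

set_option autoImplicit false

namespace Crest.Agent.N233.Wu

variable {G₀ : Type} [Group G₀] (G : Subgroup G₀) [G.Normal]

theorem cn_inj (h : ∀ u : G₀, (∀ g ∈ G, u * g = g * u) → u = 1) :
    Function.Injective (MulAut.conjNormal (H := G)) :=
  (injective_iff_map_eq_one _).2 fun u e => h u fun g hg => by
    have := congrArg (fun β : MulAut G => (β ⟨g, hg⟩ : G₀)) e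
    simpa [mul_inv_eq_iff_eq_mul] using this

/-- an automorphism of `G` which normalises `c(G₀)` extends to `G₀` -/
theorem exists_ext (inj : Function.Injective (MulAut.conjNormal (H := G))) {β : MulAut G}
    (hβ : β ∈ Subgroup.normalizer ((MulAut.conjNormal (H := G)).range : Set (MulAut G))) :
    ∃ b : G₀ ≃* G₀, ∀ g : G, b g = β g := by
  let c := MulAut.conjNormal (H := G)
  let e : G₀ ≃* G₀ := eqvOf (ι := (MulAut.conj β).toMonoidHom.comp c) (ι' := c)
    ((MulAut.conj β).injective.comp inj) inj (by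
      rw [MonoidHom.range_comp]; exact Subgroup.mem_normalizer_iff_map_conj_eq.1 hβ)
  have he : ∀ g, c (e g) = β * c g * β⁻¹ := eqvOf_spec _ _ _
  refine ⟨e, fun g => inj ?_⟩
  rw [show MulAut.conjNormal (e g) = _ from he g]
  ext x
  simp [c, MulAut.conjNormal_val]

/-- **rigidity**, reduced to automorphisms of `G₀` which preserve `G` -/
theorem rig_of (inj : Function.Injective (MulAut.conjNormal (H := G)))
    (h : ∀ b : G₀ ≃* G₀, (∀ g, b g ∈ G ↔ g ∈ G) → ∃ u : G₀, ∀ g ∈ G, b g = u * g * u⁻¹) :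
    Subgroup.normalizer ((MulAut.conjNormal (H := G)).range : Set (MulAut G)) ≤
      (MulAut.conjNormal (H := G)).range := fun β hβ => by
  obtain ⟨b, hb⟩ := exists_ext G inj hβ
  obtain ⟨u, hu⟩ := h b fun g => ⟨fun k => by
    obtain ⟨x, hx⟩ := β.surjective ⟨_, k⟩
    rw [← b.injective ((hb x).trans (congrArg Subtype.val hx))]
    exact x.2, fun k => by rw [hb ⟨g, k⟩]; exact (β _).2⟩
  exact ⟨u, MulEquiv.ext fun g => Subtype.ext ((hu g g.2).symm.trans (hb g))⟩

end Crest.Agent.N233.Wu
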